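import Mathlib

/-!
# Linear algebra for the localization map
-/

set_option linter.unusedSectionVars false

namespace Vale.Agent.P291Z.Psi

open Function Matrix

section tri

variable {ι : Type} [Fintype ι] [DecidableEq ι] (g : ι → ℕ)

theorem eq_zero_of_max {M : Type} [Zero M] {v : ι → M}
    (h : ∀ a, (∀ c, g a < g c → v c = 0) → v a = 0) : v = 0 := by
  classical
  by_contra h0
  obtain ⟨a, ha, h1⟩ := Finset.exists_max_image (Finset.univ.filter fun a => v a ≠ 0) g
    (by simpa [Finset.filter_nonempty_iff, funext_iff] using h0)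
  refine (Finset.mem_filter.1 ha).2 (h a fun c hc => by_contra fun h2 => ?_)
  exact (h1 c (Finset.mem_filter.2 ⟨Finset.mem_univ _, h2⟩)).not_gt hc

/-- matrices that are strictly triangular for `g` -/
def up : Submodule ℂ (Matrix ι ι ℂ) where
  carrier := {x | ∀ a b, ¬g a < g b → x a b = 0}
  zero_mem' _ _ _ := rfl
  add_mem' hx hy a b h := by rw [Matrix.add_apply, hx a b h, hy a b h, add_zero]
  smul_mem' c x hx a b h := by rw [Matrix.smul_apply, hx a b h, smul_zero]

variable {g}

theorem up_mul_apply {κ : Type} {u : Matrix ι ι ℂ} (hu : u ∈ up g) {x : Matrix ι κ ℂ} {a : ι}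
    {b : κ} (h : ∀ c, g a < g c → x c b = 0) : (u * x) a b = 0 :=
  Finset.sum_eq_zero fun c _ => by
    by_cases hc : g a < g c
    · exact mul_eq_zero_of_right _ (h c hc)
    · exact mul_eq_zero_of_left (hu a c hc) _

theorem exists_conj {d : ι → ℂ} (hd : ∀ a b, g a < g b → d a ≠ d b) {u : Matrix ι ι ℂ}
    (hu : u ∈ up g) :
    ∃ n : Matrix ι ι ℂ, IsUnit n.det ∧ (diagonal d + u) * n = n * diagonal d := by
  let L : Matrix ι ι ℂ →ₗ[ℂ] Matrix ι ι ℂ :=
    LinearMap.mulLeft ℂ (diagonal d + u) - LinearMap.mulRight ℂ (diagonal d)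
  have hL : ∀ x a b, L x a b = (d a - d b) * x a b + (u * x) a b := fun x a b => by
    simp only [L, LinearMap.sub_apply, LinearMap.mulLeft_apply, LinearMap.mulRight_apply, add_mul,
      Matrix.sub_apply, Matrix.add_apply, diagonal_mul, mul_diagonal]
    ring
  have h1 : ∀ x ∈ up g, L x ∈ up g := fun x hx a b h => by
    rw [hL, hx a b h, mul_zero, zero_add]
    exact up_mul_apply hu fun c hc => hx c b fun h' => h (hc.trans h')
  have h2 : Injective (L.restrict h1) := (injective_iff_map_eq_zero _).2 fun x hx => by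
    refine Subtype.ext (eq_zero_of_max g (v := fun a => x.1 a) fun a ha => funext fun b => ?_)
    by_cases h : g a < g b
    · have h3 : L x.1 a b = 0 := congrFun (congrFun (congrArg Subtype.val hx) a) b
      rw [hL, up_mul_apply hu fun c hc => congrFun (ha c hc) b, add_zero] at h3
      exact (mul_eq_zero.1 h3).resolve_left (sub_ne_zero.2 (hd a b h))
    · exact x.2 a b h
  obtain ⟨x, hx⟩ := LinearMap.injective_iff_surjective.1 h2 ⟨-u, (up g).neg_mem hu⟩
  have hx' : (diagonal d + u) * x.1 - x.1 * diagonal d = -u := congrArg Subtype.val hx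
  refine ⟨1 + x.1, isUnit_iff_ne_zero.2 fun h => ?_, ?_⟩
  · obtain ⟨v, hv, h3⟩ := exists_mulVec_eq_zero_iff.2 h
    refine hv (eq_zero_of_max g fun a ha => ?_)
    have h4 := congrFun h3 a
    rw [add_mulVec, one_mulVec, Pi.add_apply] at h4
    have h5 : (x.1 *ᵥ v) a = 0 := Finset.sum_eq_zero fun c _ => by
      by_cases hc : g a < g c
      · exact mul_eq_zero_of_right _ (ha c hc)
      · exact mul_eq_zero_of_left (x.2 a c hc) _
    rwa [h5, add_zero] at h4
  · rw [mul_add, mul_one, add_mul 1, one_mul, sub_eq_iff_eq_add.1 hx']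
    abel

end tri

theorem prod_dvd_del {m : ℕ} {R : Type} [CommRing R] (x : Fin m → R) (g : Fin m → ℕ) :
    ∏ p ∈ Finset.univ.filter (fun p : Fin m × Fin m => g p.2 < g p.1), (x p.1 - x p.2) ∣
      ∏ a, ∏ b ∈ Finset.Ioi a, (x a - x b) := by
  let φ : Fin m × Fin m → Fin m × Fin m := fun p => if p.1 < p.2 then p else p.swap
  have h1 : ∏ a, ∏ b ∈ Finset.Ioi a, (x a - x b) =
      ∏ p ∈ Finset.univ.filter (fun p : Fin m × Fin m => p.1 < p.2), (x p.1 - x p.2) := by
    rw [Finset.prod_filter, Fintype.prod_prod_type]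
    refine Finset.prod_congr rfl fun a _ => ?_
    rw [← Finset.prod_filter, Finset.filter_lt_eq_Ioi]
  rw [h1]
  refine (Finset.prod_dvd_prod_of_dvd _ (fun p => x (φ p).1 - x (φ p).2) fun p _ => ?_).trans ?_
  · dsimp only [φ]
    split_ifs
    · exact dvd_rfl
    · exact ⟨-1, by simp⟩
  · rw [← Finset.prod_image (f := fun q : Fin m × Fin m => x q.1 - x q.2) (g := φ)]
    · refine Finset.prod_dvd_prod_of_subset _ _ _ fun q hq => ?_
      obtain ⟨p, hp, rfl⟩ := Finset.mem_image.1 hq
      have h2 : p.1 ≠ p.2 := fun e => (Finset.mem_filter.1 hp).2.ne (by rw [e])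
      refine Finset.mem_filter.2 ⟨Finset.mem_univ _, ?_⟩
      dsimp only [φ]
      split_ifs with h
      · exact h
      · exact lt_of_le_of_ne (not_lt.1 h) h2.symm
    · intro p hp q hq e
      have h2 := (Finset.mem_filter.1 hp).2
      have h3 := (Finset.mem_filter.1 hq).2
      dsimp only [φ] at e
      split_ifs at e
      · exact e
      · subst e
        exact absurd h3 h2.asymm
      · subst e
        exact absurd h3 h2.asymm
      · exact Prod.swap_injective e

/-- A linear form on `M` that extends to `N` after localization. -/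
theorem exists_loc {S K M N : Type} [CommRing S] [IsDomain S] [Algebra ℂ S] [Field K] [Algebra ℂ K]
    [AddCommGroup M] [Module S M] [AddCommGroup N] [Module S N] [Module ℂ N] [IsScalarTower ℂ S N]
    (ι : S →ₐ[ℂ] K) (hι : Injective ι) (a : M →ₗ[S] N) (F : M →ₗ[S] S) {D : S} (hD : D ≠ 0)
    (h1 : ∀ z, ∃ γ, a γ = D • z) (h2 : ∀ γ, a γ = 0 → D • γ = 0) :
    ∃ Ψ : N →ₗ[ℂ] K, (∀ (s : S) z, Ψ (s • z) = ι s * Ψ z) ∧ ∀ γ, Ψ (a γ) = ι (F γ) := by
  choose c hc using h1
  have h0 : ι D ≠ 0 := (map_ne_zero_iff ι hι).2 hD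
  have h3 : ∀ γ γ', a γ = a γ' → F γ = F γ' := fun γ γ' h => by
    have := congrArg F (h2 (γ - γ') (by rw [map_sub, h, sub_self]))
    rw [map_smul, map_zero, map_sub, smul_eq_mul] at this
    exact sub_eq_zero.1 ((mul_eq_zero.1 this).resolve_left hD)
  have h4 : ∀ (s : S) z, ι (F (c (s • z))) / ι D = ι s * (ι (F (c z)) / ι D) := fun s z => by
    rw [h3 (c (s • z)) (s • c z) (by rw [map_smul, hc, hc, smul_comm]), map_smul, smul_eq_mul,
      map_mul, mul_div_assoc]
  refine ⟨⟨⟨fun z => ι (F (c z)) / ι D, fun z z' => ?_⟩, fun r z => ?_⟩, h4, fun γ => ?_⟩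
  · rw [h3 (c (z + z')) (c z + c z') (by rw [map_add, hc, hc, hc, smul_add]), map_add, map_add,
      add_div]
  · rw [← algebraMap_smul S r z]
    exact (h4 _ _).trans (by rw [ι.commutes, RingHom.id_apply, Algebra.smul_def])
  · change ι (F (c (a γ))) / ι D = _
    rw [h3 (c (a γ)) (D • γ) (by rw [hc, map_smul]), map_smul, smul_eq_mul, map_mul,
      mul_div_cancel_left₀ _ h0]

end Vale.Agent.P291Z.Psi
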