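import Vale.Agent.P291Z.Fcl
import Vale.Agent.P291Z.Psi.A

/-!
# Localization maps on the equivariant homology for the torus
-/

set_option linter.unusedSectionVars false

namespace Vale.Agent.P291Z.Psi

open Set Function Topology MvPolynomial

variable {J : Type} [Fintype J] {n : J → ℕ}

section coord

theorem chr_one (χ : Bx n → ℤ) : chr n χ 1 = 1 :=
  Finset.prod_eq_one fun _ _ => one_zpow _

theorem chr_mul (χ : Bx n → ℤ) (t t' : Tc n) : chr n χ (t * t') = chr n χ t * chr n χ t' := by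
  rw [chr, chr, chr, ← Finset.prod_mul_distrib]
  exact Finset.prod_congr rfl fun c _ => mul_zpow (t c : ℂ) (t' c) _

theorem continuous_chr (χ : Bx n → ℤ) : Continuous (chr n χ) :=
  continuous_finsetProd _ fun c _ => (TS.continuous_coord c).zpow₀ _ fun _ =>
    Or.inl (Circle.coe_ne_zero _)

theorem linf_hom (χ : Bx n → ℤ) : (linf n χ).IsHomogeneous 1 :=
  (homogeneousSubmodule _ _ 1).sum_mem fun c _ =>
    (homogeneousSubmodule _ _ 1).smul_mem _ (isHomogeneous_X _ c)

variable {ι : Type} [Fintype ι]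

/-- the representation with weights `w` -/
def Cr (_ : ι → Bx n → ℤ) : Type := ι → ℂ

variable (w : ι → Bx n → ℤ)

noncomputable instance : AddCommGroup (Cr w) := inferInstanceAs (AddCommGroup (ι → ℂ))

noncomputable instance : Module ℂ (Cr w) := inferInstanceAs (Module ℂ (ι → ℂ))

noncomputable instance : TopologicalSpace (Cr w) := inferInstanceAs (TopologicalSpace (ι → ℂ))

noncomputable instance : DistribMulAction (Tc n) (Cr w) where
  smul t x := fun i => chr n (w i) t * x i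
  one_smul x := funext fun i => (congrArg (· * x i) (chr_one _)).trans (one_mul _)
  mul_smul t t' x := funext fun i => (congrArg (· * x i) (chr_mul _ t t')).trans (mul_assoc _ _ _)
  smul_zero _ := funext fun _ => mul_zero _
  smul_add _ _ _ := funext fun _ => mul_add _ _ _

instance : Nice (Cr w) := inferInstanceAs (Nice (ι → ℂ))

theorem continuous_Cr (i : ι) : Continuous fun x : Cr w => x i := continuous_apply i

instance : ContinuousSMul (Tc n) (Cr w) :=
  ⟨continuous_pi fun i => ((continuous_chr (w i)).comp continuous_fst).mul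
    ((continuous_Cr w i).comp continuous_snd)⟩

theorem isRep_Cr : IsRep (Tc n) (Cr w) (Fintype.card ι) :=
  ⟨(show Nonempty ((ι → ℂ) ≃L[ℂ] (Fin (Fintype.card ι) → ℂ)) from
      ⟨ContinuousLinearEquiv.ofFinrankEq (by simp)⟩),
    ⟨fun _ _ _ => funext fun _ => mul_left_comm _ _ _⟩, inferInstance⟩

theorem eu_Cr : eu (isRep_Cr w) = psiT n (∏ i, linf n (w i)) := by
  classical
  refine eu_weights (W := Cr w) _ (Pi.basisFun ℂ ι) w fun t p => funext fun i => ?_
  change chr n (w i) t * Pi.basisFun ℂ ι p i = chr n (w p) t * Pi.basisFun ℂ ι p i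
  rw [Pi.basisFun_apply, Pi.single_apply]
  split_ifs with h
  · rw [h]
  · rw [mul_zero, mul_zero]

theorem prod_linf_hom : (∏ i, linf n (w i)).IsHomogeneous (Fintype.card ι) := by
  have := IsHomogeneous.prod Finset.univ (fun i => linf n (w i)) (fun _ => 1)
    fun i _ => linf_hom (w i)
  rwa [Finset.sum_const, smul_eq_mul, mul_one] at this

end coord

theorem isPr_of_comp {X Y Z : Type} [TopologicalSpace X] [TopologicalSpace Y] [TopologicalSpace Z]
    [T2Space Y] {f : X → Y} {g : Y → Z} {h : X → Z} (hf : Continuous f) (hg : Continuous g)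
    (hh : IsPr h) (e : ∀ x, g (f x) = h x) : IsPr f :=
  ⟨hf, fun _ hS => (hh.pre _ (hS.image hg)).of_isClosed_subset (hS.isClosed.preimage hf)
    fun x hx => ⟨_, hx, e x⟩⟩

theorem isPr_lin {G V V' : Type} [Group G] [TopologicalSpace G] [AddCommGroup V]
    [DistribMulAction G V] [Module ℂ V] [TopologicalSpace V] [AddCommGroup V']
    [DistribMulAction G V'] [Module ℂ V'] [TopologicalSpace V'] {r r' : ℕ} (hV : IsRep G V r)
    (hV' : IsRep G V' r') (f : V →ₗ[ℂ] V') (hf : Injective f) : IsPr f := by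
  obtain ⟨e⟩ := hV.lin
  obtain ⟨e'⟩ := hV'.lin
  have h1 := LinearMap.isClosedEmbedding_of_injective
    (f := e'.toLinearMap ∘ₗ f ∘ₗ e.symm.toLinearMap)
    (LinearMap.ker_eq_bot.2 (e'.injective.comp (hf.comp e.symm.injective)))
  have h2 := (e'.symm.toHomeomorph.isClosedEmbedding.comp h1).comp e.toHomeomorph.isClosedEmbedding
  have h3 : (f : V → V') = _ ∘ _ := funext fun x =>
    (e'.symm_apply_apply _).symm.trans (congrArg (e'.symm <| e' <| f ·) (e.symm_apply_apply x).symm)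
  exact .of_isClosedEmbedding (h3 ▸ h2)

section loc

variable {X C V K : Type} [TopologicalSpace X] [MulAction (Tc n) X] [Nice X]
  [ContinuousSMul (Tc n) X] [TopologicalSpace C] [MulAction (Tc n) C] [Nice C]
  [ContinuousSMul (Tc n) C] [AddCommGroup V] [DistribMulAction (Tc n) V] [Module ℂ V]
  [TopologicalSpace V] [Nice V] [ContinuousSMul (Tc n) V] [Field K] [Algebra ℂ K] {r : ℕ}

theorem epush_smulT {i : C →[Tc n] X} (hi : IsPr i) (s : SP n) (β : EH (Tc n) C) :
    epush i (s • β) = s • epush i β := epush_smul hi (psiT n s) β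

/-- `D` kills the kernel and the cokernel of the push-forward along `i` -/
structure Loc (i : C →[Tc n] X) (p : C →[Tc n] V) (D : SP n) : Prop where
  hi : IsPr i
  hp : IsPr p
  ne : D ≠ 0
  coker : ∀ z, ∃ γ, epush i γ = D • z
  ker : ∀ γ, epush i γ = 0 → D • γ = 0

theorem loc_of_section {W : Type} [AddCommGroup W] [DistribMulAction (Tc n) W] [Module ℂ W]
    [TopologicalSpace W] {s : ℕ} (hW : IsRep (Tc n) W s) {σ : X →[Tc n] W} (hσ : Continuous σ)
    {i : C →[Tc n] X} (hi : IsClosedEmbedding i) (hr : ∀ x, x ∈ range i ↔ σ x = 0)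
    {p : C →[Tc n] V} (hp : IsPr p) {D : SP n} (hD : eu hW = psiT n D) (h0 : D ≠ 0) :
    Loc i p D := by
  let U : SubMulAction (Tc n) X := ⟨(range i)ᶜ, fun t x hx h => hx (by
    have := range_inv i t⁻¹ _ h
    rwa [inv_smul_smul] at this)⟩
  have hU : IsOpen (U : Set X) := hi.isClosed_range.isOpen_compl
  have : Nice U := Nice.of_isLocallyClosed hU.isLocallyClosed
  have hj : IsOpenEmbedding U.inclusion := hU.isOpenEmbedding_subtypeVal
  have hc : range U.inclusion = (range i)ᶜ := Subtype.range_coe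
  have hk : ∀ β : EH (Tc n) U, psiT n D • β = 0 := fun β => hD ▸
    eu_smul_eq_zero hW (σ := σ.comp U.inclusion) (hσ.comp hj.continuous)
      (fun x h => x.2 ((hr _).2 h)) β
  exact ⟨.of_isClosedEmbedding hi, hp, h0, loc_coker hi hj hc hk, fun _ => loc_ker hi hj hc hk⟩

/-- `Ψ` is the localized push-forward -/
structure IsLoc (i : C →[Tc n] X) (p : C →[Tc n] V) (ι : SP n →ₐ[ℂ] K)
    (Ψ : EH (Tc n) X →ₗ[ℂ] K) : Prop where
  smul : ∀ (s : SP n) z, Ψ (s • z) = ι s * Ψ z
  push : ∀ γ (f : SP n), epush p γ = f • fcl n V → Ψ (epush i γ) = ι f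

variable {i : C →[Tc n] X} {p : C →[Tc n] V} {D : SP n} {ι : SP n →ₐ[ℂ] K}
  {Ψ : EH (Tc n) X →ₗ[ℂ] K} (hV : IsRep (Tc n) V r) (L : Loc i p D)
include hV L

theorem exists_isLoc (hι : Injective ι) : ∃ Ψ, IsLoc i p ι Ψ := by
  let e := LinearEquiv.ofBijective (LinearMap.toSpanSingleton (SP n) _ (fcl n V)) (fcl_free hV)
  obtain ⟨Ψ, h1, h2⟩ := exists_loc ι hι ⟨(epush i).toAddHom, epush_smulT L.hi⟩
    (e.symm.toLinearMap ∘ₗ ⟨(epush p).toAddHom, epush_smulT L.hp⟩) L.ne L.coker L.ker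
  exact ⟨Ψ, h1, fun γ f h => (h2 γ).trans (congrArg ι (e.symm_apply_eq.2 h))⟩

theorem IsLoc.deg (H : IsLoc i p ι Ψ) (hι : Injective ι) {e : ℕ} (hD : D.IsHomogeneous e) {k : ℤ}
    {z : EH (Tc n) X} (hz : z ∈ EH.deg (Tc n) X k) : Ψ z = 0 ∨
      ∃ (f : SP n) (d : ℕ), k - 2 * e = 2 * r - 2 * d ∧ f.IsHomogeneous d ∧ ι D * Ψ z = ι f := by
  obtain ⟨γ, hγ⟩ := L.coker z
  have h1 : D • z ∈ EH.deg (Tc n) X (k - 2 * e) := EH.smul_deg (psiT_deg.2 hD) hz
  have h2 := EH.comp_map (φ := epush i) (c := 0)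
    (fun k β hβ => by rw [add_zero]; exact epush_deg L.hi hβ) (k - 2 * e) γ
  rw [add_zero, hγ, EH.comp_of_mem h1] at h2
  obtain ⟨f, hf⟩ := (fcl_free hV).2 (epush p (EH.comp (k - 2 * e) γ))
  have h3 : ι D * Ψ z = ι f := by rw [← H.smul, h2, H.push _ f hf.symm]
  have h4 : f • fcl n V ∈ EH.deg (Tc n) V (k - 2 * e) := by
    rw [show f • fcl n V = _ from hf]
    exact epush_deg L.hp (EH.comp_mem _ _)
  obtain rfl | ⟨d, h5, h6⟩ := (smul_fcl_deg hV).1 h4
  · rw [map_zero] at h3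
    exact Or.inl ((mul_eq_zero.1 h3).resolve_left ((map_ne_zero_iff ι hι).2 L.ne))
  · exact Or.inr ⟨f, d, h5, h6, h3⟩

theorem IsLoc.wmap (H : IsLoc i p ι Ψ) (hι : Injective ι) (w : Wy n) {φ : X → X}
    (hφ : ∀ (t : Tc n) z, φ (t • z) = wT w t • φ z) (hφ' : IsPr φ) {ψ : C → C}
    (hψ : ∀ (t : Tc n) z, ψ (t • z) = wT w t • ψ z) (hψ' : IsPr ψ) (f : V →ₗ[ℂ] V)
    (hf : ∀ (t : Tc n) z, f (t • z) = wT w t • f z) (hb : Bijective f)
    (h1 : ∀ c, φ (i c) = i (ψ c)) (h2 : ∀ c, f (p c) = p (ψ c)) (α : K →+* K)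
    (hα : ∀ s, α (ι s) = ι (rename (Wy.perm w) s)) (z : EH (Tc n) X) :
    Ψ (lpush (wmap w φ hφ) z) = Wy.sgn w • α (Ψ z) := by
  obtain ⟨γ, hγ⟩ := L.coker z
  obtain ⟨a, ha⟩ := (fcl_free hV).2 (epush p γ)
  have hf' := isPr_lin hV hV f hb.1
  have h3 : ι D * Ψ z = ι a := by rw [← H.smul, ← hγ, H.push _ a ha.symm]
  have h4 : epush p (lpush (P291Z.wmap w ψ hψ) γ) =
      (Wy.sgn w • rename (Wy.perm w) a) • fcl n V := by
    rw [← lpush_wmap_epush w hf hψ hf' hψ' L.hp L.hp h2, ← show a • fcl n V = _ from ha,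
      lpush_wmap_smul w hf hf', lpush_wmap_fcl hV hV w f hf hb, smul_assoc, smul_comm]
  have h5 := H.push _ _ h4
  rw [← lpush_wmap_epush w hφ hψ hφ' hψ' L.hi L.hi h1, hγ, lpush_wmap_smul w hφ hφ', H.smul,
    map_smul, ← hα a, ← h3, map_mul, hα, ← mul_smul_comm] at h5
  exact mul_left_cancel₀ ((map_ne_zero_iff ι hι).2 fun h =>
    L.ne (rename_injective _ (Wy.perm w).injective (h.trans (map_zero _).symm))) h5

/-- the class of a vector bundle `B ⊆ U × V` over a representation `U` -/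
theorem IsLoc.thom (H : IsLoc i p ι Ψ) {U V' V'' : Type} [AddCommGroup U]
    [DistribMulAction (Tc n) U] [Module ℂ U] [TopologicalSpace U] [Nice U] [ContinuousSMul (Tc n) U]
    [AddCommGroup V'] [DistribMulAction (Tc n) V'] [Module ℂ V'] [TopologicalSpace V'] [Nice V']
    [ContinuousSMul (Tc n) V'] [AddCommGroup V''] [DistribMulAction (Tc n) V''] [Module ℂ V'']
    [TopologicalSpace V''] [Nice V''] [ContinuousSMul (Tc n) V''] {s r' r'' : ℕ}
    (hU : IsRep (Tc n) U s) (hV' : IsRep (Tc n) V' r') (hV'' : IsRep (Tc n) V'' r'')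
    {B : SubMulAction (Tc n) (U × V)} (h0 : ∀ z, (z, 0) ∈ B) [Nice B] (hB : IsSubVB B r')
    {k : B →[Tc n] X} (hk : IsPr k) (jl : V' →ₗ[ℂ] V) (hi : Injective jl) (κ : V →ₗ[ℂ] V'')
    (hκ : ∀ (t : Tc n) x, κ (t • x) = t • κ x) (he : Function.Exact jl κ) (hs : Surjective κ)
    {j : V' →[Tc n] B} (hj : ∀ x, (j x).1 = (0, jl x)) {q : V' →[Tc n] C} (hq : Continuous q)
    (h1 : ∀ x, i (q x) = k (j x)) (h2 : ∀ x, p (q x) = jl x) {a b : SP n} (ha : eu hU = psiT n a)
    (hb : eu hV'' = psiT n b) : ι a * Ψ (epush k (ethom B h0 (fcl n U))) = ι b := by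
  have hjl := isPr_lin hV' hV jl hi
  have hjc : Continuous j := continuous_induced_rng.2
    ((continuous_const.prodMk hjl.cont).congr fun x => (hj x).symm)
  have hj' : IsPr j := isPr_of_comp hjc (continuous_snd.comp continuous_subtype_val) hjl
    fun x => congrArg Prod.snd (hj x)
  have hq' : IsPr q := isPr_of_comp hq L.hp.cont hjl h2
  have h3 := H.push (epush q (fcl n V')) b (by
    rw [epush_epush hq' L.hp (h := p.comp q) fun _ => rfl,
      epush_fcl hV hV' hV'' jl h2 κ hκ hi he hs, hb]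
    rfl)
  rw [epush_epush hq' L.hi (h := k.comp j) fun x => (h1 x).symm,
    ← epush_epush hj' hk fun _ => rfl, epush_fcl_fibre h0 hU hV hB hV' jl hj hi, ha,
    ← EH.smulT_def, epush_smulT hk, H.smul] at h3
  exact h3

end loc

end Vale.Agent.P291Z.Psi
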