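import Vale.Agent.P291Z.HigE0
import Vale.Agent.P291Z.Wt0
import Vale.Agent.P291Z.Psi.B

/-!
# The localization map for commuting pairs: geometry
-/

set_option linter.unusedSectionVars false

namespace Vale.Agent.P291Z.Psi

open Set Function Topology Matrix Four Flav

variable {I E : Type} {Q : Quiv I E} {Φ : Type} [Fintype Φ] [Fintype I] [Fintype E] [DecidableEq I]

/-- equivariant maps -/
abbrev TH {J : Type} [Fintype J] (n : J → ℕ) (X Y : Type) [MulAction (Tc n) X]
    [MulAction (Tc n) Y] : Type := X →[Tc n] Y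

theorem contSMul_of_inducing {G X Y : Type} [Group G] [TopologicalSpace G] [TopologicalSpace X]
    [TopologicalSpace Y] [MulAction G X] [MulAction G Y] [ContinuousSMul G Y] {i : X →[G] Y}
    (hi : IsInducing i) : ContinuousSMul G X :=
  ⟨hi.continuous_iff.2 ((continuous_fst.smul (hi.continuous.comp continuous_snd)).congr
    fun p => (map_smul i p.1 p.2).symm)⟩

/-- matrix positions -/
abbrev Ps (Q : Quiv I E) : Type := Σ i, Fin (Q.v i) × Fin (Q.v i)

/-- the row -/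
abbrev Ps.r (p : Ps Q) : Q.qd.Col := ⟨p.1, p.2.1⟩

/-- the column -/
abbrev Ps.c (p : Ps Q) : Q.qd.Col := ⟨p.1, p.2.2⟩

/-- the entry at a position -/
def ent (ξ : Ad Q Φ) (p : Ps Q) : ℂ := ξ.en p.1 p.2.1 p.2.2

theorem ent_ext {ξ η : Ad Q Φ} (h : ∀ p, ent ξ p = ent η p) : ξ = η :=
  funext fun i => Matrix.ext fun a b => h ⟨i, a, b⟩

theorem continuous_ent (p : Ps Q) : Continuous fun ξ : Ad Q Φ => ent ξ p :=
  ((continuous_apply p.1).comp continuous_en).matrix_elem _ _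

theorem ent_smul (t : Tc (Q.nn Φ)) (ξ : Ad Q Φ) (p : Ps Q) :
    ent (t • ξ) p = chr _ (rootW p.r p.c) t * ent ξ p := by
  change (ga Q Φ (toG _ t) p.1 * ξ.en p.1 * ga Q Φ (toG _ t)⁻¹ p.1) p.2.1 p.2.2 = _
  rw [← map_inv, ga_toG, ga_toG, chr_rootW, mul_right_comm]
  exact (mul_diagonal _ _ _ _).trans (congrArg₂ (· * ·) (diagonal_mul _ _ _ _) (Circle.coe_inv _))

theorem ent_wG (w : Wy (Q.nn Φ)) (ξ : Ad Q Φ) (p : Ps Q) : ent (wG w • ξ) p =
    ent ξ ⟨p.1, (wyG w p.1)⁻¹ p.2.1, (wyG w p.1)⁻¹ p.2.2⟩ := by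
  change ((wyG w p.1)⁻¹.permMatrix ℂ * ξ.en p.1 * (wyG w p.1).permMatrix ℂ) p.2.1 p.2.2 = _
  rw [PEquiv.toMatrix_toPEquiv_mul, PEquiv.mul_toMatrix_toPEquiv]
  rfl

/-- diagonal elements -/
noncomputable def dg (Φ : Type) (d : Q.qd.Col → ℂ) : Ad Q Φ := fun i => diagonal fun a => d ⟨i, a⟩

theorem ent_dg (d : Q.qd.Col → ℂ) {p : Ps Q} (h : p.2.1 ≠ p.2.2) : ent (dg Φ d) p = 0 :=
  diagonal_apply_ne _ h

theorem spec_dg (d : Q.qd.Col → ℂ) : Sp.spec (dg Φ d).en = range d :=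
  Sp.IsRt.spec_eq fun _ => charpoly_diagonal _

theorem smul_dg (t : Tc (Q.nn Φ)) (d : Q.qd.Col → ℂ) : t • dg Φ d = dg Φ d :=
  ent_ext fun ⟨i, a, b⟩ => by
    rw [ent_smul]
    by_cases h : a = b
    · subst h
      rw [chr_rootW, mul_inv_cancel₀ (Circle.coe_ne_zero _), one_mul]
    · rw [ent_dg _ h, mul_zero]

theorem co_lie_dg (d : Q.qd.Col → ℂ) (x : Q.N ℂ) (c : QL.Ix Q) :
    QL.co (Q.lie (dg Φ d).en x) c = ((ixP c).2.2.elim 0 d - d (ixP c).2.1) * QL.co x c := by
  obtain ⟨e, p, r⟩ | ⟨i, l, r⟩ := c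
  · simp [QL.co, Quiv.lie, dg, Ad.en, ixP, mul_sub, mul_comm]
  · simp [QL.co, Quiv.lie, dg, Ad.en, ixP, mul_comm]

variable (Q Φ) in
/-- the roots -/
abbrev odW (p : {p : Ps Q // p.2.1 ≠ p.2.2}) : Bx (Q.nn Φ) → ℤ := rootW p.1.r p.1.c

variable (A : Flav Q Φ)

/-- the off-diagonal part -/
noncomputable def od : TH (Q.nn Φ) (Cm A Sp.seg) (Cr (odW Q Φ)) where
  toFun x p := ent x.1.2 p.1
  map_smul' t x := funext fun p => ent_smul t x.1.2 p.1

theorem continuous_od : Continuous (od A) :=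
  continuous_pi fun p => (continuous_ent p.1).comp (continuous_snd.comp continuous_subtype_val)

/-- the pairs with diagonal second component -/
def Cd : Type := {x : Cm A Sp.seg // od A x = 0}

noncomputable instance : TopologicalSpace (Cd A) := instTopologicalSpaceSubtype

noncomputable instance : MulAction (Tc (Q.nn Φ)) (Cd A) where
  smul t x := ⟨t • x.1, (map_smul (od A) t x.1).trans (by rw [x.2, smul_zero])⟩
  one_smul x := Subtype.ext (one_smul (Tc (Q.nn Φ)) x.1)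
  mul_smul t t' x := Subtype.ext (mul_smul t t' x.1)

/-- the inclusion -/
noncomputable def iC : TH (Q.nn Φ) (Cd A) (Cm A Sp.seg) where
  toFun x := x.1
  map_smul' _ _ := rfl

theorem isClosedEmbedding_iC : IsClosedEmbedding (iC A) :=
  (isClosed_eq (continuous_od A) continuous_const).isClosedEmbedding_subtypeVal

instance : Nice (Cd A) := Nice.of_isEmbedding (isClosedEmbedding_iC A).isEmbedding
  (isClosedEmbedding_iC A).isClosed_range.isLocallyClosed

instance : ContinuousSMul (Tc (Q.nn Φ)) (Cd A) :=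
  contSMul_of_inducing (isClosedEmbedding_iC A).isInducing

/-- the projection to `N` -/
noncomputable def pN : Cd A →[Tc (Q.nn Φ)] A.NN where
  toFun x := x.1.1.1
  map_smul' _ _ := rfl

theorem isPr_pN : IsPr (pN A) := by
  have h1 : IsClosedEmbedding fun x : Cd A => x.1.1 :=
    (isClosed_Cm Sp.isClosed_seg).isClosedEmbedding_subtypeVal.comp (isClosedEmbedding_iC A)
  have h2 : IsCompact {ξ : Ad Q Φ | ∀ i a b, ξ.en i a b ∈ Metric.closedBall (0 : ℂ) 1} := by
    have := isCompact_univ_pi fun i => isCompact_univ_pi fun _ : Fin (Q.v i) =>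
      isCompact_univ_pi fun _ : Fin (Q.v i) => isCompact_closedBall (0 : ℂ) 1
    exact this.of_isClosed_subset (by
      simp only [ofPred_forall]
      exact isClosed_iInter fun i => isClosed_iInter fun a => isClosed_iInter fun b =>
        Metric.isClosed_closedBall.preimage (continuous_ent ⟨i, a, b⟩))
      fun _ h i _ a _ b _ => h i a b
  have h3 : Continuous (pN A) := continuous_fst.comp h1.continuous
  refine ⟨h3, fun S hS => (h1.isCompact_preimage (hS.prod h2)).of_isClosed_subset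
    (hS.isClosed.preimage h3) fun x hx => ⟨hx, fun i a b => ?_⟩⟩
  have h4 : x.1.1.2 = dg Φ fun c => ent x.1.1.2 ⟨c.1, c.2, c.2⟩ := ent_ext fun ⟨i, a, b⟩ => by
    by_cases h : a = b
    · subst h
      exact (diagonal_apply_eq (fun a => ent x.1.1.2 ⟨i, a, a⟩) a).symm
    · exact (congrFun x.2 ⟨⟨i, a, b⟩, h⟩).trans (ent_dg _ h).symm
  rw [mem_closedBall_zero_iff]
  by_cases h : a = b
  · subst h
    obtain ⟨h5, h6, h7⟩ := x.1.2.2 (show ent x.1.1.2 ⟨i, a, a⟩ ∈ _ by
      rw [h4, spec_dg, ← h4]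
      exact ⟨⟨i, a⟩, rfl⟩)
    exact (Complex.norm_le_abs_re_add_abs_im _).trans (by
      rw [show (x.1.1.2.en i a a).im = 0 from h7, abs_zero, add_zero]
      exact abs_le.2 ⟨le_trans (by norm_num) h5, h6⟩)
  · rw [show x.1.1.2.en i a b = 0 from congrFun x.2 ⟨⟨i, a, b⟩, h⟩, norm_zero]
    exact zero_le_one

theorem loc_Cd : Loc (iC A) (pN A) (∏ p, linf _ (odW Q Φ p)) :=
  loc_of_section (isRep_Cr _) (continuous_od A) (isClosedEmbedding_iC A)
    (fun x => ⟨fun ⟨y, hy⟩ => hy ▸ y.2, fun h => ⟨⟨x, h⟩, rfl⟩⟩) (isPr_pN A)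
    (eu_Cr _) (Finset.prod_ne_zero_iff.2 fun p _ h => p.2 (by
      have := spE_rootW (Φ := Φ) p.1.r p.1.c
      rw [h, map_zero, eq_comm, sub_eq_zero] at this
      exact eq_of_heq (Sigma.mk.inj (MvPolynomial.X_injective this)).2))

theorem wG_smul {J : Type} [Fintype J] {n : J → ℕ} {Z : Type} [TopologicalSpace Z]
    [MulAction (GG n) Z] [MulAction (Tc n) Z] [IsScalarTower (Tc n) (GG n) Z] (w : Wy n)
    (t : Tc n) (z : Z) :
    wG w • t • z = wT w t • wG w • z := by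
  rw [smulT_eq, smulT_eq, toG_wT, smul_smul, smul_smul, inv_mul_cancel_right]

/-- the action of the Weyl group -/
noncomputable def wC (w : Wy (Q.nn Φ)) (x : Cd A) : Cd A :=
  ⟨wG w • x.1, funext fun p => (ent_wG w x.1.1.2 p.1).trans
    (congrFun x.2 ⟨⟨p.1.1, _, _⟩, fun h => p.2 ((wyG w p.1.1)⁻¹.injective h)⟩)⟩

theorem isLoc_wact {K : Type} [Field K] [Algebra ℂ K] {ι : SP (Q.nn Φ) →ₐ[ℂ] K}
    {Ψ : EH (Tc (Q.nn Φ)) (Cm A Sp.seg) →ₗ[ℂ] K} (H : IsLoc (iC A) (pN A) ι Ψ)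
    (hι : Injective ι) (w : Wy (Q.nn Φ)) (α : K →+* K)
    (hα : ∀ s, α (ι s) = ι (MvPolynomial.rename (Wy.perm w) s)) (z) :
    Ψ (lpush (wact _ w) z) = Wy.sgn w • α (Ψ z) := by
  have h1 : IsPr fun z : Cm A Sp.seg => wG w • z := .of_homeomorph (Homeomorph.smul (wG w))
  have h2 := isClosedEmbedding_iC A
  refine H.wmap (Flav.isRep_NN A).toT (loc_Cd A) hι w (wG_smul w) h1 (ψ := wC A w)
    (fun t z => Subtype.ext (wG_smul w t z.1)) (isPr_of_comp
      ((h1.cont.comp h2.continuous).subtype_mk _) h2.continuous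
      (h1.comp (.of_isClosedEmbedding h2)) fun _ => rfl) (A.rep (wG w))
    (wG_smul (Z := A.NN) w) (MulAction.bijective (β := A.NN) (wG w)) (fun _ => rfl)
    (fun _ => rfl) α hα z

section cls

variable (g : Q.qd.Col → ℕ)

/-- the eigenvalues attached to a colouring -/
noncomputable def lam (c : Q.qd.Col) : ℂ := (g c : ℂ) / (Finset.univ.sup g : ℕ)

theorem lam_mem (c : Q.qd.Col) : lam g c ∈ Sp.seg := by
  have h : lam g c = ((g c : ℝ) / (Finset.univ.sup g : ℕ) : ℝ) := by simp [lam]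
  rw [h]
  exact ⟨by rw [Complex.ofReal_re]; positivity, by
    rw [Complex.ofReal_re]
    exact div_le_one_of_le₀ (Nat.cast_le.2 (Finset.le_sup (Finset.mem_univ c))) (Nat.cast_nonneg _),
    Complex.ofReal_im _⟩

theorem lam_eq_iff (c : Q.qd.Col) (o : Option Q.qd.Col) :
    o.elim 0 (lam g) - lam g c = 0 ↔ g c = o.elim 0 g := by
  have h : o.elim 0 (lam g) = ((o.elim 0 g : ℕ) : ℂ) / (Finset.univ.sup g : ℕ) := by
    cases o
    · simp
    · rfl
  rw [h, sub_eq_zero, lam]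
  by_cases h0 : Finset.univ.sup g = 0
  · have h1 : ∀ c, g c = 0 := fun c => Nat.le_zero.1 (h0 ▸ Finset.le_sup (Finset.mem_univ c))
    cases o <;> simp [h0, h1]
  · rw [div_left_inj' (Nat.cast_ne_zero.2 h0), Nat.cast_inj, eq_comm]

theorem exists_lam (h : g ≠ 0) : ∃ c, lam g c = 1 := by
  obtain ⟨c, hc⟩ := Function.ne_iff.1 h
  obtain ⟨c', -, h1⟩ := Finset.exists_mem_eq_sup Finset.univ ⟨c, Finset.mem_univ c⟩ g
  refine ⟨c', by
    rw [lam, ← h1]
    exact div_self (Nat.cast_ne_zero.2 fun h0 => hc (Nat.le_zero.1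
      (h0 ▸ Finset.le_sup (Finset.mem_univ c))))⟩

variable (Φ) in
/-- the roots of the nilradical -/
abbrev upW (p : {p : Ps Q // g p.r < g p.c}) : Bx (Q.nn Φ) → ℤ := rootW p.1.r p.1.c

/-- the matrix with given entries in the nilradical -/
noncomputable def mat (u : Cr (upW Φ g)) : Ad Q Φ := fun i => Matrix.of fun a b =>
  if h : g ⟨i, a⟩ < g ⟨i, b⟩ then u ⟨⟨i, a, b⟩, h⟩ else 0

theorem ent_mat (u : Cr (upW Φ g)) (p : Ps Q) :
    ent (mat g u) p = if h : g p.r < g p.c then u ⟨p, h⟩ else 0 := rfl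

/-- the element of the parabolic -/
noncomputable def par (u : Cr (upW Φ g)) : Ad Q Φ := dg Φ (lam g) + mat g u

theorem ent_par (u : Cr (upW Φ g)) (p : {p : Ps Q // g p.r < g p.c}) : ent (par g u) p.1 = u p := by
  change ent (dg Φ (lam g)) p.1 + ent (mat g u) p.1 = _
  rw [ent_dg _ fun h => p.2.ne (by rw [Ps.r, h]), zero_add]
  exact dif_pos p.2

theorem par_zero : par g (0 : Cr (upW Φ g)) = dg Φ (lam g) := by
  rw [par, show mat g (0 : Cr (upW Φ g)) = 0 from ent_ext fun _ => dite_eq_right_iff.2 fun _ => rfl,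
    add_zero]

theorem par_smul (t : Tc (Q.nn Φ)) (u : Cr (upW Φ g)) : par g (t • u) = t • par g u := by
  rw [par, par, smul_add, smul_dg]
  refine congrArg (_ + ·) (ent_ext fun p => ?_)
  rw [ent_smul, ent_mat, ent_mat]
  split_ifs
  exacts [rfl, (mul_zero _).symm]

theorem continuous_par : Continuous (par (Φ := Φ) g) := by
  refine continuous_pi fun i => continuous_pi fun a => continuous_pi fun b =>
    continuous_const.add (?_ : Continuous fun u : Cr (upW Φ g) => ent (mat g u) ⟨i, a, b⟩)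
  simp only [ent_mat]
  split_ifs
  exacts [continuous_Cr _ _, continuous_const]

theorem exists_par (u : Cr (upW Φ g)) : ∃ γ : GG (Q.nn Φ), par g u = γ • dg Φ (lam g) := by
  have h := fun i => exists_conj (g := fun a => g ⟨i, a⟩) (d := fun a => lam g ⟨i, a⟩)
    (fun a b h e => h.ne ((lam_eq_iff g _ (some ⟨i, b⟩)).1 (sub_eq_zero.2 e.symm)))
    (u := mat g u i) fun a b h => dif_neg h
  choose m h1 h2 using h
  refine ⟨fun j => match j with
    | Sum.inl i => nonsingInvUnit (m i) (h1 i)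
    | Sum.inr _ => 1, funext fun i => ?_⟩
  change _ = m i * Matrix.diagonal _ * (m i)⁻¹
  rw [← h2, mul_nonsing_inv_cancel_right _ _ (h1 i)]
  rfl

theorem spec_par (u : Cr (upW Φ g)) : Sp.spec (par g u).en = range (lam g) := by
  obtain ⟨γ, h⟩ := exists_par g u
  rw [h, en_smul, Sp.spec_conj _ (KN.ga_inv γ), spec_dg]

/-- the bundle of annihilators over the nilradical -/
noncomputable def Bg : SubMulAction (Tc (Q.nn Φ)) (Cr (upW Φ g) × A.NN) where
  carrier := {x | Q.lie (par g x.1).en x.2 = 0}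
  smul_mem' t x h := by
    change Q.lie (par g (t • x.1)).en _ = 0
    rw [par_smul]
    exact (lie_conj (toG _ t) _ x.2).trans (by rw [show Q.lie _ x.2 = 0 from h, map_zero])

theorem isClosed_Bg : IsClosed (Bg A g : Set (Cr (upW Φ g) × A.NN)) :=
  isClosed_eq (continuous_lie (continuous_en.comp ((continuous_par g).comp continuous_fst))
    continuous_snd) continuous_const

instance : Nice (Bg A g) := Nice.of_isLocallyClosed (isClosed_Bg A g).isLocallyClosed

theorem zero_mem_Bg (u : Cr (upW Φ g)) : (u, 0) ∈ Bg A g := map_zero (Q.lie _)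

theorem isSubVB_Bg :
    IsSubVB (Bg A g) (Module.finrank ℂ (LinearMap.ker (Q.lie (dg Φ (lam g)).en))) := by
  refine ⟨isClosed_Bg A g, fun u => ⟨LinearMap.ker (Q.lie (par g u).en), ?_, fun _ => Iff.rfl⟩⟩
  obtain ⟨γ, h⟩ := exists_par g u
  have h1 := QL.rep_injective A γ
  rw [(Submodule.equivMapOfInjective _ h1 _).finrank_eq, h]
  refine congrArg (fun S : Submodule ℂ (Q.N ℂ) => Module.finrank ℂ S) (Submodule.ext fun x => ?_)
  obtain ⟨y, rfl⟩ := LinearMap.injective_iff_surjective.1 h1 x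
  exact ((congrArg (· = 0) (lie_conj γ _ y)).to_iff.trans (map_eq_zero_iff _ h1)).trans
    (h1.mem_set_image (s := LinearMap.ker (Q.lie (dg Φ (lam g)).en))).symm

/-- the map to an invariant set -/
noncomputable def kB (Z : SubMulAction (GG (Q.nn Φ)) (A.NN × Ad Q Φ))
    (h : ∀ x : Bg A g, (x.1.2, par g x.1.1) ∈ Z) : TH (Q.nn Φ) (Bg A g) Z where
  toFun x := ⟨_, h x⟩
  map_smul' t x := Subtype.ext (Prod.ext rfl (par_smul g t x.1.1))

theorem isPr_kB (Z : SubMulAction (GG (Q.nn Φ)) (A.NN × Ad Q Φ))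
    (h : ∀ x : Bg A g, (x.1.2, par g x.1.1) ∈ Z) [Nice Z] : IsPr (kB A g Z h) :=
  isPr_of_comp (g := fun x : Z => ((fun p => ent x.1.2 p.1, x.1.1) : Cr (upW Φ g) × A.NN))
    (((continuous_snd.prodMk ((continuous_par g).comp continuous_fst)).comp
      continuous_subtype_val).subtype_mk _)
    ((continuous_pi fun p : {p : Ps Q // g p.r < g p.c} => (continuous_ent p.1).comp
      (continuous_snd.comp continuous_subtype_val)).prodMk
        (continuous_fst.comp continuous_subtype_val))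
    (.of_isClosedEmbedding (isClosed_Bg A g).isClosedEmbedding_subtypeVal)
    fun x => Prod.ext (funext (ent_par g x.1.1)) rfl

theorem Bg_Cm (x : Bg A g) : (x.1.2, par g x.1.1) ∈ Cm A Sp.seg :=
  ⟨x.2, (spec_par g x.1.1).subset.trans (range_subset_iff.2 (lam_mem g))⟩

theorem Bg_Zo (h : g ≠ 0) (x : Bg A g) : (x.1.2, par g x.1.1) ∈ Zo A :=
  ⟨Bg_Cm A g x, fun h1 => (h1.2 ((spec_par g x.1.1).superset (exists_lam g h))).2 rfl⟩

end cls

end Vale.Agent.P291Z.Psi
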